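import Vale.Agent.P073Z.Defs

/-!
# Calculus of piecewise linear maps

Closure properties of `PLOn`, countable suprema, and PL norms on finite dimensional spaces.
-/

open Set Metric Topology Filter

namespace P073

namespace A2

variable {E F G : Type} [NormedAddCommGroup E] [NormedSpace ℝ E]
  [NormedAddCommGroup F] [NormedSpace ℝ F] [NormedAddCommGroup G] [NormedSpace ℝ G]
  {X : Set E}

theorem conicalSet_univ : ConicalSet (univ : Set E) := IsOpen.conicalSet isOpen_univ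

theorem pl_set {h : E → F} (H : PLOn h X) : ConicalSet X := H.2.conicalSet

theorem pl_const (c : F) (hX : ConicalSet X) : PLOn (fun _ : E => c) X :=
  ⟨continuousOn_const, conicalOn_const c hX⟩

theorem pl_id (hX : ConicalSet X) : PLOn (fun y : E => y) X :=
  ⟨continuousOn_id, conicalOn_id hX⟩

theorem pl_clm (L : E →L[ℝ] F) (hX : ConicalSet X) : PLOn (fun y => L y) X :=
  ⟨L.continuous.continuousOn, conicalOn_linear L.toLinearMap hX⟩

theorem pl_mono {h : E → F} {X' : Set E} (H : PLOn h X) (hX' : ConicalSet X') (hsub : X' ⊆ X) :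
    PLOn h X' := ⟨H.1.mono hsub, H.2.mono hX' hsub⟩

theorem pl_congr {h h' : E → F} (H : PLOn h X) (he : EqOn h' h X) : PLOn h' X :=
  ⟨H.1.congr he, H.2.congr he⟩

theorem pl_comp {g : F → G} {h : E → F} {Y : Set F} (hg : PLOn g Y) (hh : PLOn h X)
    (hm : MapsTo h X Y) : PLOn (fun x => g (h x)) X :=
  ⟨hg.1.comp hh.1 hm, hg.2.comp hh.2 hm hh.1⟩

theorem pl_comp_univ {g : F → G} {h : E → F} (hg : PLOn g univ) (hh : PLOn h X) :
    PLOn (fun x => g (h x)) X := pl_comp hg hh (mapsTo_univ _ _)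

theorem pl_add {a b : E → F} (ha : PLOn a X) (hb : PLOn b X) : PLOn (fun y => a y + b y) X :=
  ⟨ha.1.add hb.1, ha.2.add hb.2⟩

theorem pl_sub {a b : E → F} (ha : PLOn a X) (hb : PLOn b X) : PLOn (fun y => a y - b y) X :=
  ⟨ha.1.sub hb.1, ha.2.sub hb.2⟩

theorem pl_neg {a : E → F} (ha : PLOn a X) : PLOn (fun y => - a y) X := ⟨ha.1.neg, ha.2.neg⟩

theorem pl_smul (c : ℝ) {a : E → F} (ha : PLOn a X) : PLOn (fun y => c • a y) X :=
  ⟨ha.1.const_smul c, ha.2.const_smul c⟩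

theorem pl_mul (c : ℝ) {a : E → ℝ} (ha : PLOn a X) : PLOn (fun y => c * a y) X := pl_smul c ha

theorem pl_prodMk {a : E → F} {b : E → G} (ha : PLOn a X) (hb : PLOn b X) :
    PLOn (fun y => (a y, b y)) X := ⟨ha.1.prodMk hb.1, ha.2.prodMk hb.2⟩

theorem pl_fst {Z : Set (E × F)} (hZ : ConicalSet Z) : PLOn (fun q : E × F => q.1) Z :=
  pl_clm (ContinuousLinearMap.fst ℝ E F) hZ

theorem pl_snd {Z : Set (E × F)} (hZ : ConicalSet Z) : PLOn (fun q : E × F => q.2) Z :=
  pl_clm (ContinuousLinearMap.snd ℝ E F) hZ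

theorem pl_proj {ι : Type} [Fintype ι] (i : ι) {Z : Set (ι → ℝ)} (hZ : ConicalSet Z) :
    PLOn (fun q : ι → ℝ => q i) Z :=
  pl_clm (ContinuousLinearMap.proj (R := ℝ) (φ := fun _ : ι => ℝ) i) hZ

theorem pl_cle (L : E ≃L[ℝ] F) (hX : ConicalSet X) : PLOn (fun y => L y) X :=
  pl_clm (L : E →L[ℝ] F) hX

theorem pl_max {a b : E → ℝ} (ha : PLOn a X) (hb : PLOn b X) :
    PLOn (fun y => max (a y) (b y)) X := ⟨ContinuousOn.sup ha.1 hb.1, ha.2.rmax hb.2 ha.1 hb.1⟩

theorem pl_min {a b : E → ℝ} (ha : PLOn a X) (hb : PLOn b X) :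
    PLOn (fun y => min (a y) (b y)) X := ⟨ContinuousOn.inf ha.1 hb.1, ha.2.rmin hb.2 ha.1 hb.1⟩

theorem pl_abs {a : E → ℝ} (ha : PLOn a X) : PLOn (fun y => |a y|) X :=
  pl_congr (pl_max ha (pl_neg ha)) fun _ _ => abs_eq_max_neg

theorem pl_pi {ι : Type} [Fintype ι] {h : E → ι → ℝ} (hX : ConicalSet X)
    (H : ∀ i, PLOn (fun y => h y i) X) : PLOn h X :=
  ⟨continuousOn_pi.2 fun i => (H i).1,
    fun x hx => conicalWithinAt_pi (hX x hx) fun i => (H i).2 x hx⟩

theorem pl_sum {ι : Type} (s : Finset ι) {f : ι → E → F} (hX : ConicalSet X)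
    (H : ∀ i ∈ s, PLOn (f i) X) : PLOn (fun y => ∑ i ∈ s, f i y) X := by
  classical
  induction s using Finset.induction_on with
  | empty => simpa using pl_const (0 : F) hX
  | insert a s ha ih =>
    simp only [Finset.sum_insert ha]
    exact pl_add (H a (Finset.mem_insert_self _ _))
      (ih fun i hi => H i (Finset.mem_insert_of_mem hi))

theorem pl_sup' {ι : Type} (s : Finset ι) (hs : s.Nonempty) {f : ι → E → ℝ}
    (H : ∀ i ∈ s, PLOn (f i) X) : PLOn (fun y => s.sup' hs fun i => f i y) X := by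
  induction hs using Finset.Nonempty.cons_induction with
  | singleton a => simpa using H a (Finset.mem_singleton_self a)
  | cons a s ha hs ih =>
    simp only [Finset.sup'_cons hs]
    exact pl_max (H a (Finset.mem_cons_self _ _))
      (ih fun i hi => H i (Finset.mem_cons_of_mem hi))

theorem pl_inf' {ι : Type} (s : Finset ι) (hs : s.Nonempty) {f : ι → E → ℝ}
    (H : ∀ i ∈ s, PLOn (f i) X) : PLOn (fun y => s.inf' hs fun i => f i y) X := by
  induction hs using Finset.Nonempty.cons_induction with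
  | singleton a => simpa using H a (Finset.mem_singleton_self a)
  | cons a s ha hs ih =>
    simp only [Finset.inf'_cons hs]
    exact pl_min (H a (Finset.mem_cons_self _ _))
      (ih fun i hi => H i (Finset.mem_cons_of_mem hi))

/-- the product of conical sets is conical -/
theorem conicalSet_prod {Y : Set F} (hX : ConicalSet X) (hY : ConicalSet Y) :
    ConicalSet (X ×ˢ Y) := by
  rintro ⟨x, y⟩ ⟨hx, hy⟩
  obtain ⟨r, hr, H⟩ := hX x hx
  obtain ⟨s, hs, H'⟩ := hY y hy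
  refine ⟨min r s, lt_min hr hs, fun v hv hxv t ht => ⟨?_, ?_⟩⟩
  · exact H v.1 ((norm_fst_le v).trans (hv.trans (min_le_left _ _))) hxv.1 t ht
  · exact H' v.2 ((norm_snd_le v).trans (hv.trans (min_le_right _ _))) hxv.2 t ht

/-- the product of local cones is a local cone -/
theorem locCone_prod {Y : Set F} (hX : LocCone X) (hY : LocCone Y) : LocCone (X ×ˢ Y) := by
  rintro ⟨x, y⟩
  obtain ⟨r, hr, H⟩ := hX x
  obtain ⟨s, hs, H'⟩ := hY y
  refine ⟨min r s, lt_min hr hs, fun v hv t ht => and_congr ?_ ?_⟩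
  · exact H v.1 ((norm_fst_le v).trans (hv.trans (min_le_left _ _))) t ht
  · exact H' v.2 ((norm_snd_le v).trans (hv.trans (min_le_right _ _))) t ht

/-- `PLOn` is a local property -/
theorem pl_of_local {h : E → F}
    (H : ∀ x ∈ X, ∃ g : E → F, PLOn g X ∧ ∀ᶠ y in 𝓝[X] x, h y = g y) : PLOn h X := by
  constructor
  · intro x hx
    obtain ⟨g, hg, he⟩ := H x hx
    exact (hg.1 x hx).congr_of_eventuallyEq_of_mem he hx
  · intro x hx
    obtain ⟨g, hg, he⟩ := H x hx
    exact (hg.2 x hx).congr_nhds (Eventually.of_forall fun _ => Iff.rfl)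
      (eventually_nhdsWithin_iff.1 he) (he.self_of_nhdsWithin hx)

/-- a supremum of a sequence that is locally dominated by finitely many terms is attained -/
theorem iSup_eq_sup' {a : ℕ → ℝ} {n : ℕ} (h : ∀ k, ∃ j ≤ n, a k ≤ a j) :
    ⨆ k, a k = (Finset.range (n + 1)).sup' Finset.nonempty_range_add_one a := by
  have hb : ∀ k, a k ≤ (Finset.range (n + 1)).sup' Finset.nonempty_range_add_one a := by
    intro k
    obtain ⟨j, hj, hk⟩ := h k
    exact hk.trans (Finset.le_sup' a (Finset.mem_range.2 (Nat.lt_succ_of_le hj)))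
  refine le_antisymm (ciSup_le hb) (Finset.sup'_le _ _ fun j _ => ?_)
  exact le_ciSup ⟨_, forall_mem_range.2 hb⟩ j

/-- locally finite suprema of PL functions -/
theorem pl_iSup {f : ℕ → E → ℝ} (H : ∀ k, PLOn (f k) X)
    (hl : ∀ x ∈ X, ∃ n, ∀ᶠ y in 𝓝[X] x, ∀ k, ∃ j ≤ n, f k y ≤ f j y) :
    PLOn (fun y => ⨆ k, f k y) X := by
  refine pl_of_local fun x hx => ?_
  obtain ⟨n, hn⟩ := hl x hx
  refine ⟨_, pl_sup' (Finset.range (n + 1)) Finset.nonempty_range_add_one fun k _ => H k, ?_⟩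
  filter_upwards [hn] with y hy
  exact iSup_eq_sup' hy

/-- domination by finitely many terms, for small terms with a positive supremum -/
theorem dom_of_small {T : Type} [TopologicalSpace T] {X : Set T} {f : ℕ → T → ℝ} {a : ℕ → ℝ}
    (H : ∀ k, ContinuousOn (f k) X) (ha : Tendsto a atTop (𝓝 0))
    (hb : ∀ k, ∀ y ∈ X, f k y ≤ a k) {x : T} (hx : x ∈ X) (hp : ∃ k, 0 < f k x) :
    ∃ n, ∀ᶠ y in 𝓝[X] x, ∀ k, ∃ j ≤ n, f k y ≤ f j y := by
  obtain ⟨k₀, hk₀⟩ := hp
  have h1 : ∀ᶠ y in 𝓝[X] x, f k₀ x / 2 < f k₀ y :=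
    (H k₀ x hx).eventually (lt_mem_nhds (by linarith))
  obtain ⟨n, hn⟩ := eventually_atTop.1 (ha.eventually (gt_mem_nhds (half_pos hk₀)))
  refine ⟨max n k₀, ?_⟩
  filter_upwards [h1, self_mem_nhdsWithin] with y hy hyX k
  rcases le_total k n with hk | hk
  · exact ⟨k, hk.trans (le_max_left _ _), le_rfl⟩
  · exact ⟨k₀, le_max_right _ _, by linarith [hb k y hyX, hn k hk]⟩

/-- suprema of small PL functions: the supremum is PL and it is attained -/
theorem pl_iSup_small {f : ℕ → E → ℝ} {a : ℕ → ℝ} (H : ∀ k, PLOn (f k) X)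
    (ha : Tendsto a atTop (𝓝 0)) (hb : ∀ k, ∀ y ∈ X, f k y ≤ a k)
    (hp : ∀ x ∈ X, ∃ k, 0 < f k x) : PLOn (fun y => ⨆ k, f k y) X ∧
      ∀ x ∈ X, (∃ j, ⨆ k, f k x = f j x) ∧ ∀ j, f j x ≤ ⨆ k, f k x := by
  have hd := fun x hx => dom_of_small (fun k => (H k).1) ha hb hx (hp x hx)
  refine ⟨pl_iSup H hd, fun x hx => ?_⟩
  obtain ⟨n, hn⟩ := hd x hx
  have h1 := hn.self_of_nhdsWithin hx
  have h2 := iSup_eq_sup' h1
  obtain ⟨j, -, hj⟩ := Finset.exists_mem_eq_sup' (Finset.nonempty_range_add_one (n := n))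
    fun k => f k x
  refine ⟨⟨j, h2.trans hj⟩, fun i => ?_⟩
  obtain ⟨i', hi', hle⟩ := h1 i
  rw [h2]
  exact hle.trans (Finset.le_sup' (fun k => f k x) (Finset.mem_range.2 (Nat.lt_succ_of_le hi')))

/-- the sup norm is PL -/
theorem pl_norm_pi (n : ℕ) : PLOn (fun y : Fin n → ℝ => ‖y‖) univ := by
  rcases Nat.eq_zero_or_pos n with h | h
  · subst h
    refine pl_congr (pl_const (0:ℝ) conicalSet_univ) fun y _ => ?_
    simp [Subsingleton.elim y 0]
  · have : Nonempty (Fin n) := ⟨⟨0, h⟩⟩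
    refine pl_congr (pl_sup' Finset.univ Finset.univ_nonempty
      (f := fun i (y : Fin n → ℝ) => |y i|) fun i _ =>
      pl_abs (pl_proj i conicalSet_univ)) fun y _ => ?_
    refine le_antisymm ((pi_norm_le_iff_of_nonempty _).2 fun i => ?_)
      (Finset.sup'_le _ _ fun i _ => norm_le_pi_norm y i)
    exact Finset.le_sup' (fun i => |y i|) (Finset.mem_univ i)

/-- coordinates on a finite dimensional space -/
theorem exists_coord (E : Type) [NormedAddCommGroup E] [NormedSpace ℝ E] [FiniteDimensional ℝ E] :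
    ∃ (n : ℕ) (e : E ≃L[ℝ] (Fin n → ℝ)) (C : ℝ), 1 ≤ C ∧ PLOn (fun x => ‖e x‖) univ ∧
      ∀ x, ‖e x‖ ≤ C * ‖x‖ ∧ ‖x‖ ≤ C * ‖e x‖ := by
  let e : E ≃L[ℝ] (Fin (Module.finrank ℝ E) → ℝ) :=
    ContinuousLinearEquiv.ofFinrankEq (by simp)
  have h1 := norm_nonneg e.toContinuousLinearMap
  have h2 := norm_nonneg e.symm.toContinuousLinearMap
  refine ⟨_, e, 1 + ‖e.toContinuousLinearMap‖ + ‖e.symm.toContinuousLinearMap‖, by linarith,
    pl_comp_univ (pl_norm_pi _) (pl_cle e conicalSet_univ), fun x => ⟨?_, ?_⟩⟩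
  · exact (e.toContinuousLinearMap.le_opNorm x).trans
      (mul_le_mul_of_nonneg_right (by linarith) (norm_nonneg _))
  · have := e.symm.toContinuousLinearMap.le_opNorm (e x)
    simp only [ContinuousLinearEquiv.coe_coe, ContinuousLinearEquiv.symm_apply_apply] at this
    exact this.trans (mul_le_mul_of_nonneg_right (by linarith) (norm_nonneg _))

end A2

end P073
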