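import Vale.Agent.P073Z.A2.Basic

/-!
# The minimum of a PL function over a compact polyhedron of parameters is PL
-/

open Set Metric Topology Filter

namespace P073.A2

variable {E F : Type} [NormedAddCommGroup E] [NormedSpace ℝ E]
  [NormedAddCommGroup F] [NormedSpace ℝ F]

theorem conical_min {K : Set F} (hK : IsCompact K) (hc : LocCone K) {Φ : E × F → ℝ}
    (hΦ : PLOn Φ (univ ×ˢ K)) {g : E → ℝ} (hg : Continuous g)
    (h1 : ∀ x, ∃ y ∈ K, g x = Φ (x, y)) (h2 : ∀ x, ∀ y ∈ K, g x ≤ Φ (x, y)) :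
    ConicalOn g univ := by
  intro x₀ _
  have hr : ∀ y ∈ K, ∃ r > 0, (∀ w : F, ‖w‖ ≤ r → ∀ t ∈ Ioc (0:ℝ) 1, y + t • w ∈ K → y + w ∈ K) ∧
      ∀ q : E × F, ‖q‖ ≤ r → y + q.2 ∈ K → ∀ t ∈ Icc (0:ℝ) 1, y + t • q.2 ∈ K ∧
        Φ ((x₀, y) + t • q) = Φ (x₀, y) + t * (Φ ((x₀, y) + q) - Φ (x₀, y)) := by
    intro y hy
    obtain ⟨r, hr, H⟩ := hc y
    obtain ⟨s, hs, H'⟩ := hΦ.2 (x₀, y) ⟨mem_univ _, hy⟩
    refine ⟨min r s, lt_min hr hs, fun w hw t ht =>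
      (H w (hw.trans (min_le_left _ _)) t ht).1, fun q hq hyq t ht => ?_⟩
    obtain ⟨a1, a2⟩ := H' q (hq.trans (min_le_right _ _)) ⟨mem_univ _, hyq⟩ t ht
    exact ⟨a1.2, a2⟩
  choose! r hr0 hrA hrB using hr
  have hev : ∀ᶠ x in 𝓝 x₀, ∀ y' ∈ K, (y' ∈ K → g x = Φ (x, y') →
      ∃ y ∈ K, Φ (x₀, y) = g x₀ ∧ ‖((x, y') : E × F) - (x₀, y)‖ ≤ r y / 2) := by
    refine hK.eventually_forall_of_forall_eventually fun y hy => ?_
    rcases eq_or_lt_of_le (h2 x₀ y hy) with he | hl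
    · have : ∀ᶠ z : E × F in 𝓝 (x₀, y), ‖z - (x₀, y)‖ ≤ r y / 2 := by
        filter_upwards [closedBall_mem_nhds (x₀, y) (half_pos (hr0 y hy))] with z hz
        rwa [mem_closedBall, dist_eq_norm] at hz
      filter_upwards [this] with z hz _ _
      exact ⟨y, hy, he.symm, hz⟩
    · have c1 : ContinuousWithinAt (fun z : E × F => g z.1) (univ ×ˢ K) (x₀, y) :=
        (hg.comp continuous_fst).continuousWithinAt
      have := c1.eventually_lt (hΦ.1 (x₀, y) ⟨mem_univ _, hy⟩) hl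
      filter_upwards [eventually_nhdsWithin_iff.1 this] with z hz hzK he
      exact absurd he (hz ⟨mem_univ _, hzK⟩).ne
  obtain ⟨ρ, hρ, hb⟩ := Metric.nhds_basis_closedBall.mem_iff.1 hev
  have hb' : ∀ v : E, ‖v‖ ≤ ρ → ∃ y' ∈ K, g (x₀ + v) = Φ (x₀ + v, y') ∧ ∃ y ∈ K,
      Φ (x₀, y) = g x₀ ∧ ‖((v, y' - y) : E × F)‖ ≤ r y / 2 := by
    intro v hv
    obtain ⟨y', hy', e⟩ := h1 (x₀ + v)
    have hm : x₀ + v ∈ closedBall x₀ ρ := by
      rwa [mem_closedBall, dist_eq_norm, add_sub_cancel_left]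
    obtain ⟨y, hy, e1, e2⟩ := hb hm y' hy' hy' e
    refine ⟨y', hy', e, y, hy, e1, ?_⟩
    rwa [Prod.mk_sub_mk, add_sub_cancel_left] at e2
  refine conical_of_half (mem_univ _) hρ fun v hv _ t ht => ⟨mem_univ _, le_antisymm ?_ ?_⟩
  · obtain ⟨y', hy', e, y, hy, e1, e2⟩ := hb' v hv
    obtain ⟨a1, a2⟩ := hrB y hy (v, y' - y) (e2.trans (half_le_self (hr0 y hy).le))
      (by simpa using hy') t ⟨by linarith [ht.1], ht.2⟩
    have a3 := h2 (x₀ + t • v) _ a1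
    rw [Prod.smul_mk, Prod.mk_add_mk, Prod.mk_add_mk, add_sub_cancel, ← e, e1] at a2
    rw [smul_eq_mul, ← a2]
    exact a3
  · have ht0 : 0 < t := by linarith [ht.1]
    obtain ⟨y', hy', e, y, hy, e1, e2⟩ :=
      hb' (t • v) (norm_smul_le_of_mem_Icc ⟨ht0.le, ht.2⟩ hv)
    have e3 : t • t⁻¹ • (y' - y) = y' - y := smul_inv_smul₀ ht0.ne' _
    have e4 : ‖((v, t⁻¹ • (y' - y)) : E × F)‖ ≤ r y := by
      have : ((t • v, y' - y) : E × F) = t • (v, t⁻¹ • (y' - y)) := by rw [Prod.smul_mk, e3]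
      rw [this, norm_smul, Real.norm_of_nonneg ht0.le] at e2
      nlinarith [norm_nonneg ((v, t⁻¹ • (y' - y)) : E × F), ht.1]
    have e5 : y + t⁻¹ • (y' - y) ∈ K :=
      hrA y hy _ ((norm_snd_le ((v, t⁻¹ • (y' - y)) : E × F)).trans e4) t ⟨ht0, ht.2⟩
        (by rwa [e3, add_sub_cancel])
    obtain ⟨-, a2⟩ := hrB y hy (v, t⁻¹ • (y' - y)) e4 e5 t ⟨ht0.le, ht.2⟩
    have a3 := h2 (x₀ + v) _ e5
    rw [Prod.smul_mk, Prod.mk_add_mk, Prod.mk_add_mk, e3, add_sub_cancel, ← e, e1] at a2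
    rw [smul_eq_mul, a2]
    nlinarith

theorem exists_min {K : Set F} (hK : IsCompact K) (hc : LocCone K) (hne : K.Nonempty)
    {Φ : E × F → ℝ} (hΦ : PLOn Φ (univ ×ˢ K)) : ∃ g : E → ℝ, PLOn g univ ∧
      (∀ x, ∃ y ∈ K, g x = Φ (x, y)) ∧ ∀ x, ∀ y ∈ K, g x ≤ Φ (x, y) := by
  have : CompactSpace K := isCompact_iff_compactSpace.1 hK
  have hcont : Continuous fun q : E × K => Φ (q.1, q.2) :=
    hΦ.1.comp_continuous (f := fun q : E × K => (q.1, (q.2 : F))) (by fun_prop)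
      fun q => ⟨mem_univ _, q.2.2⟩
  have hg : Continuous fun x => sInf ((fun y : K => Φ (x, y)) '' univ) :=
    isCompact_univ.continuous_sInf (f := fun x (y : K) => Φ (x, y)) hcont
  have h12 : ∀ x, ∃ y ∈ K, sInf ((fun y : K => Φ (x, y)) '' univ) = Φ (x, y) ∧
      ∀ z ∈ K, Φ (x, y) ≤ Φ (x, z) := by
    intro x
    have := hne.to_subtype
    obtain ⟨y, -, e, hy⟩ := isCompact_univ.exists_sInf_image_eq_and_le univ_nonempty
      (f := fun y : K => Φ (x, y)) (hcont.comp (Continuous.prodMk_right x)).continuousOn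
    exact ⟨y, y.2, e, fun z hz => hy ⟨z, hz⟩ (mem_univ _)⟩
  have h1 : ∀ x, ∃ y ∈ K, sInf ((fun y : K => Φ (x, y)) '' univ) = Φ (x, y) := fun x =>
    (h12 x).imp fun y hy => ⟨hy.1, hy.2.1⟩
  have h2 : ∀ x, ∀ y ∈ K, sInf ((fun y : K => Φ (x, y)) '' univ) ≤ Φ (x, y) := by
    intro x z hz
    obtain ⟨y, -, e, hy⟩ := h12 x
    exact e ▸ hy z hz
  exact ⟨_, ⟨hg.continuousOn, conical_min hK hc hΦ hg h1 h2⟩, h1, h2⟩

/-- a PL function which vanishes exactly on a compact polyhedron -/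
theorem exists_plDist [FiniteDimensional ℝ E] {K : Set E} (hK : IsCompact K) (hc : LocCone K)
    (hne : K.Nonempty) : ∃ d : E → ℝ, PLOn d univ ∧ (∀ x, 0 ≤ d x) ∧ ∀ x, d x = 0 ↔ x ∈ K := by
  obtain ⟨N, C, -, hN, hb, -, -⟩ := exists_plNorm (E := E)
  have hs : ConicalSet ((univ : Set E) ×ˢ K) := conicalSet_prod conicalSet_univ hc.conicalSet
  obtain ⟨d, hd, h1, h2⟩ := exists_min hK hc hne (Φ := fun q : E × E => N (q.1 - q.2))
    (pl_comp_univ hN (pl_sub (pl_fst hs) (pl_snd hs)))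
  have h0 : ∀ x, 0 ≤ d x := fun x => by
    obtain ⟨y, -, e⟩ := h1 x
    exact e ▸ (norm_nonneg _).trans (hb _).1
  refine ⟨d, hd, h0, fun x => ⟨fun hx => ?_, fun hx => le_antisymm ?_ (h0 x)⟩⟩
  · obtain ⟨y, hy, e⟩ := h1 x
    have : ‖x - y‖ ≤ 0 := by have := (hb (x - y)).1; rw [hx] at e; exact this.trans e.ge
    rwa [sub_eq_zero.1 (norm_le_zero_iff.1 this)]
  · have := (h2 x x hx).trans (hb _).2
    simpa using this

end P073.A2
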