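import Vale.Agent.P073Z.Sk1
import Vale.Agent.P073Z.A2.PL

/-!
# Fibrewise monotone PL maps and thin reparametrisations
-/

open Set Metric Topology Filter

namespace P073

namespace A2

variable {E : Type} [NormedAddCommGroup E] [NormedSpace ℝ E] {X : Set E}

/-- a PL function that is strictly increasing in the fibres gives a conical homeomorphism -/
theorem exists_fibre_homeo {m : E × ℝ → ℝ} {a b : ℝ} (hab : a ≤ b) (hm : PLOn m (X ×ˢ Icc a b))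
    (hs : ∀ x ∈ X, StrictMonoOn (fun s => m (x, s)) (Icc a b)) :
    ∃ Φ : ConHomeo (X ×ˢ Icc a b)
      {q : E × ℝ | q.1 ∈ X ∧ m (q.1, a) ≤ q.2 ∧ q.2 ≤ m (q.1, b)},
      ∀ q, Φ.toFun q = (q.1, m q) := by
  classical
  have hfib : ∀ x ∈ X, ContinuousOn (fun s => m (x, s)) (Icc a b) := fun x hx =>
    hm.1.comp (by fun_prop) fun s hs => ⟨hx, hs⟩
  have hex : ∀ q : E × ℝ, ∃ s, (q.1 ∈ X ∧ m (q.1, a) ≤ q.2 ∧ q.2 ≤ m (q.1, b)) →
      s ∈ Icc a b ∧ m (q.1, s) = q.2 := by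
    intro q
    by_cases hq : q.1 ∈ X ∧ m (q.1, a) ≤ q.2 ∧ q.2 ≤ m (q.1, b)
    · obtain ⟨s, hs, he⟩ := intermediate_value_Icc hab (hfib q.1 hq.1) hq.2
      exact ⟨s, fun _ => ⟨hs, he⟩⟩
    · exact ⟨a, fun h => absurd h hq⟩
  choose ψ hψ using hex
  have hmaps : MapsTo (fun q : E × ℝ => (q.1, m q)) (X ×ˢ Icc a b)
      {q : E × ℝ | q.1 ∈ X ∧ m (q.1, a) ≤ q.2 ∧ q.2 ≤ m (q.1, b)} := by
    rintro ⟨x, s⟩ ⟨hx, hs'⟩
    exact ⟨hx, (hs x hx).monotoneOn (left_mem_Icc.2 hab) hs' hs'.1,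
      (hs x hx).monotoneOn hs' (right_mem_Icc.2 hab) hs'.2⟩
  have hcψ : ContinuousOn ψ {q : E × ℝ | q.1 ∈ X ∧ m (q.1, a) ≤ q.2 ∧ q.2 ≤ m (q.1, b)} := by
    intro q hq
    have hc : ∀ c ∈ Icc a b, ContinuousWithinAt (fun p : E × ℝ => m (p.1, c))
        {q : E × ℝ | q.1 ∈ X ∧ m (q.1, a) ≤ q.2 ∧ q.2 ≤ m (q.1, b)} q := fun c hc =>
      ContinuousWithinAt.comp (f := fun p : E × ℝ => (p.1, c)) (hm.1 (q.1, c) ⟨hq.1, hc⟩)
        (by fun_prop) fun p hp => ⟨hp.1, hc⟩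
    obtain ⟨h1, h2⟩ := hψ q hq
    refine tendsto_order.2 ⟨fun c hcq => ?_, fun c hcq => ?_⟩
    · rcases lt_or_ge c a with hca | hca
      · filter_upwards [self_mem_nhdsWithin] with p hp
        exact hca.trans_le (hψ p hp).1.1
      · have hcI : c ∈ Icc a b := ⟨hca, hcq.le.trans h1.2⟩
        have h3 : m (q.1, c) < q.2 := h2 ▸ hs q.1 hq.1 hcI h1 hcq
        filter_upwards [self_mem_nhdsWithin,
          (hc c hcI).eventually_lt continuous_snd.continuousWithinAt h3] with p hp hlt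
        refine ((hs p.1 hp.1).lt_iff_lt hcI (hψ p hp).1).1 ?_
        show m (p.1, c) < m (p.1, ψ p)
        rw [(hψ p hp).2]; exact hlt
    · rcases lt_or_ge b c with hca | hca
      · filter_upwards [self_mem_nhdsWithin] with p hp
        exact (hψ p hp).1.2.trans_lt hca
      · have hcI : c ∈ Icc a b := ⟨h1.1.trans hcq.le, hca⟩
        have h3 : q.2 < m (q.1, c) := h2 ▸ hs q.1 hq.1 h1 hcI hcq
        filter_upwards [self_mem_nhdsWithin,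
          continuous_snd.continuousWithinAt.eventually_lt (hc c hcI) h3] with p hp hlt
        refine ((hs p.1 hp.1).lt_iff_lt (hψ p hp).1 hcI).1 ?_
        show m (p.1, ψ p) < m (p.1, c)
        rw [(hψ p hp).2]; exact hlt
  have hpl := pl_prodMk (pl_fst (pl_set hm)) hm
  refine ⟨
    { toFun := fun q => (q.1, m q)
      invFun := fun q => (q.1, ψ q)
      mapsTo := hmaps
      mapsTo_inv := fun q hq => ⟨hq.1, (hψ q hq).1⟩
      left_inv := ?_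
      right_inv := fun q hq => Prod.ext rfl (hψ q hq).2
      cont := hpl.1
      cont_inv := continuousOn_fst.prodMk hcψ
      conical := hpl.2 }, fun _ => rfl⟩
  rintro ⟨x, s⟩ hq
  obtain ⟨h1, h2⟩ := hψ _ (hmaps hq)
  exact Prod.ext rfl ((hs x hq.1).injOn h1 hq.2 h2)

/-- the upper profile of the thin reparametrisation -/
theorem exists_profile {γ : E → ℝ} (hγ : PLOn γ X) (h01 : ∀ x ∈ X, 0 < γ x ∧ γ x ≤ 1) :
    ∃ b : E × ℝ → ℝ, PLOn b (X ×ˢ Icc (-1:ℝ) 1) ∧ ∀ x ∈ X,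
      StrictMonoOn (fun s => b (x, s)) (Icc (-1) 1) ∧ (∀ s ∈ Icc (-1:ℝ) 1, 0 < b (x, s)) ∧
      b (x, 1) = γ x := by
  have hZ : ConicalSet (X ×ˢ Icc (-1:ℝ) 1) :=
    conicalSet_prod (pl_set hγ) (Convex.conicalSet (convex_Icc _ _))
  let c : ℕ → ℝ := fun k => 1 / ((k : ℝ) + 1)
  have hc : ∀ k, 0 < c k := fun k => by positivity
  let f : ℕ → E × ℝ → ℝ := fun k q => min (γ q.1) (c k) - c k / 4 * (1 - q.2)
  have hf : ∀ k, PLOn (f k) (X ×ˢ Icc (-1:ℝ) 1) := fun k =>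
    pl_sub (pl_min (pl_comp hγ (pl_fst hZ) fun q hq => hq.1) (pl_const _ hZ))
      (pl_mul _ (pl_sub (pl_const _ hZ) (pl_snd hZ)))
  have hpos : ∀ q ∈ X ×ˢ Icc (-1:ℝ) 1, ∃ k, 0 < f k q := by
    intro q hq
    obtain ⟨k, hk⟩ := exists_nat_one_div_lt (h01 q.1 hq.1).1
    refine ⟨k, ?_⟩
    show 0 < min (γ q.1) (c k) - c k / 4 * (1 - q.2)
    rw [min_eq_right hk.le]
    nlinarith [hc k, hq.2.1]
  obtain ⟨h1, h2⟩ := pl_iSup_small hf tendsto_one_div_add_atTop_nhds_zero_nat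
    (fun k q hq => by
      have h3 : 0 ≤ c k / 4 * (1 - q.2) := mul_nonneg (by linarith [hc k]) (by linarith [hq.2.2])
      exact (sub_le_self _ h3).trans (min_le_right _ _)) hpos
  refine ⟨_, h1, fun x hx => ⟨fun s hs t ht hst => ?_, fun s hs => ?_, ?_⟩⟩
  · obtain ⟨j, hj⟩ := (h2 (x, s) ⟨hx, hs⟩).1
    show ⨆ k, f k (x, s) < ⨆ k, f k (x, t)
    rw [hj]
    refine lt_of_lt_of_le ?_ ((h2 (x, t) ⟨hx, ht⟩).2 j)
    show min (γ x) (c j) - c j / 4 * (1 - s) < min (γ x) (c j) - c j / 4 * (1 - t)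
    nlinarith [hc j]
  · obtain ⟨k, hk⟩ := hpos (x, s) ⟨hx, hs⟩
    exact hk.trans_le ((h2 (x, s) ⟨hx, hs⟩).2 k)
  · have h1I : (1:ℝ) ∈ Icc (-1:ℝ) 1 := ⟨by norm_num, le_rfl⟩
    obtain ⟨j, hj⟩ := (h2 (x, 1) ⟨hx, h1I⟩).1
    refine le_antisymm ?_ (le_trans ?_ ((h2 (x, 1) ⟨hx, h1I⟩).2 0))
    · show ⨆ k, f k (x, 1) ≤ γ x
      rw [hj]
      show min (γ x) (c j) - c j / 4 * (1 - 1) ≤ γ x
      rw [sub_self, mul_zero, sub_zero]
      exact min_le_left _ _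
    · show γ x ≤ min (γ x) (1 / (((0:ℕ) : ℝ) + 1)) - c 0 / 4 * (1 - 1)
      rw [sub_self, mul_zero, sub_zero, Nat.cast_zero, zero_add, div_one]
      exact le_min le_rfl (h01 x hx).2

end A2

open A2

theorem thin : THIN := by
  intro E _ _ X γ hγ h01
  obtain ⟨b, hb, hb'⟩ := exists_profile hγ h01
  have hZ := pl_set hb
  have hneg : ∀ s ∈ Icc (-1:ℝ) 1, -s ∈ Icc (-1:ℝ) 1 := fun s hs =>
    ⟨by linarith [hs.2], by linarith [hs.1]⟩
  let m : E × ℝ → ℝ := fun q => max (-b (q.1, -q.2)) (min q.2 (b q))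
  have hm : PLOn m (X ×ˢ Icc (-1:ℝ) 1) :=
    pl_max (pl_neg (pl_comp hb (pl_prodMk (pl_fst hZ) (pl_neg (pl_snd hZ)))
      fun q hq => ⟨hq.1, hneg _ hq.2⟩)) (pl_min (pl_snd hZ) hb)
  have hs : ∀ x ∈ X, StrictMonoOn (fun s => m (x, s)) (Icc (-1) 1) := by
    intro x hx s hs t ht hst
    refine max_lt_max ?_ (min_lt_min hst ((hb' x hx).1 hs ht hst))
    exact neg_lt_neg ((hb' x hx).1 (hneg t ht) (hneg s hs) (neg_lt_neg hst))
  have h1I : (1:ℝ) ∈ Icc (-1:ℝ) 1 := ⟨by norm_num, le_rfl⟩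
  have h0I : (0:ℝ) ∈ Icc (-1:ℝ) 1 := ⟨by norm_num, zero_le_one⟩
  have e1 : ∀ x ∈ X, m (x, 1) = γ x := by
    intro x hx
    show max (-b (x, -1)) (min 1 (b (x, 1))) = γ x
    rw [(hb' x hx).2.2, min_eq_right (h01 x hx).2]
    exact max_eq_right (by linarith [(hb' x hx).2.1 _ (hneg _ h1I), (h01 x hx).1])
  have e2 : ∀ x ∈ X, m (x, -1) = -γ x := by
    intro x hx
    show max (-b (x, - -1)) (min (-1) (b (x, -1))) = -γ x
    rw [neg_neg, (hb' x hx).2.2]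
    exact max_eq_left ((min_le_left _ _).trans (neg_le_neg (h01 x hx).2))
  obtain ⟨Φ, hΦ⟩ := exists_fibre_homeo (by norm_num : (-1:ℝ) ≤ 1) hm hs
  refine ⟨m, Φ.cast rfl ?_, hΦ, fun x hx => ⟨hs x hx, ?_, e1 x hx, e2 x hx⟩⟩
  · ext q
    refine and_congr_right fun hq => ?_
    rw [e1 _ hq, e2 _ hq, abs_le]
  · show max (-b (x, -0)) (min 0 (b (x, 0))) = 0
    rw [neg_zero, min_eq_left ((hb' x hx).2.1 _ h0I).le]
    exact max_eq_right (neg_nonpos.2 ((hb' x hx).2.1 _ h0I).le)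

end P073
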