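import Vale.Agent.P073Z.Sk1
import Vale.Agent.P073Z.A2.PL

/-!
# PL Urysohn functions and PL gauges
-/

open Set Metric Topology Filter

namespace P073

namespace A2

variable {E : Type} [NormedAddCommGroup E] [NormedSpace ℝ E]

/-- a PL bump around a point, supported in a given neighbourhood -/
theorem exists_bump [FiniteDimensional ℝ E] {U : Set E} {x : E} (hU : U ∈ 𝓝 x) :
    ∃ g : E → ℝ, PLOn g univ ∧ (∀ y, g y ∈ Icc (0:ℝ) 1) ∧ (∀ᶠ y in 𝓝 x, g y = 1) ∧
      HasCompactSupport g ∧ tsupport g ⊆ U := by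
  obtain ⟨n, e, C, hC, hpl, hn⟩ := exists_coord E
  obtain ⟨r, hr, hb⟩ := Metric.nhds_basis_closedBall.mem_iff.1 hU
  have hC0 : 0 < C := by linarith
  have hN : PLOn (fun y => ‖e (y - x)‖) univ :=
    pl_comp_univ (g := fun z => ‖e z‖) hpl
      (pl_sub (pl_id conicalSet_univ) (pl_const x conicalSet_univ))
  let g : E → ℝ := fun y => max 0 (min 1 (2 - (2 * C / r) * ‖e (y - x)‖))
  have hsupp : tsupport g ⊆ closedBall x r := by
    refine closure_minimal (fun y hy => ?_) isClosed_closedBall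
    by_contra hy'
    rw [mem_closedBall, dist_eq_norm, not_le] at hy'
    apply hy
    have h1 : r < C * ‖e (y - x)‖ := hy'.trans_le (hn _).2
    have h2 : 2 ≤ (2 * C / r) * ‖e (y - x)‖ := by
      rw [div_mul_eq_mul_div, le_div_iff₀ hr]; linarith
    exact max_eq_left ((min_le_right _ _).trans (by linarith))
  refine ⟨g, ?_, fun y => ⟨le_max_left _ _, max_le zero_le_one (min_le_left _ _)⟩, ?_,
    (isCompact_closedBall x r).of_isClosed_subset (isClosed_tsupport g) hsupp, hsupp.trans hb⟩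
  · exact pl_max (pl_const _ conicalSet_univ) (pl_min (pl_const _ conicalSet_univ)
      (pl_sub (pl_const _ conicalSet_univ) (pl_mul _ hN)))
  · have hc : Continuous fun y => (2 * C / r) * ‖e (y - x)‖ := by fun_prop
    have h1 : ∀ᶠ y in 𝓝 x, (2 * C / r) * ‖e (y - x)‖ < 1 :=
      hc.continuousAt.eventually_lt_const (by simp)
    filter_upwards [h1] with y hy
    show max 0 (min 1 (2 - (2 * C / r) * ‖e (y - x)‖)) = 1
    rw [min_eq_left (by linarith), max_eq_right zero_le_one]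

end A2

open A2

theorem ury : URY := by
  intro E _ _ _ K U hK hU hKU
  refine hK.induction_on (p := fun K => ∃ g : E → ℝ, PLOn g univ ∧
    (∀ x, g x ∈ Icc (0:ℝ) 1) ∧ (∀ x ∈ K, g x = 1) ∧ HasCompactSupport g ∧ tsupport g ⊆ U)
    ?_ ?_ ?_ ?_
  · refine ⟨fun _ => 0, pl_const _ conicalSet_univ, fun _ => ⟨le_rfl, zero_le_one⟩,
      fun x hx => absurd hx (notMem_empty x), HasCompactSupport.zero, ?_⟩
    intro x hx
    simp [tsupport] at hx
  · rintro s t hst ⟨g, h1, h2, h3, h4⟩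
    exact ⟨g, h1, h2, fun x hx => h3 x (hst hx), h4⟩
  · rintro s t ⟨a, a1, a2, a3, a4, a5⟩ ⟨b, b1, b2, b3, b4, b5⟩
    have hs : tsupport (fun y => max (a y) (b y)) ⊆ tsupport a ∪ tsupport b := by
      refine closure_minimal (fun y hy => ?_) ((isClosed_tsupport a).union (isClosed_tsupport b))
      by_contra hy'
      rw [mem_union, not_or] at hy'
      apply hy
      show max (a y) (b y) = 0
      rw [image_eq_zero_of_notMem_tsupport hy'.1, image_eq_zero_of_notMem_tsupport hy'.2, max_self]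
    refine ⟨fun y => max (a y) (b y), pl_max a1 b1,
      fun y => ⟨(a2 y).1.trans (le_max_left _ _), max_le (a2 y).2 (b2 y).2⟩, ?_,
      (IsCompact.union a4 b4).of_isClosed_subset (isClosed_tsupport _) hs,
      hs.trans (union_subset a5 b5)⟩
    rintro y (hy | hy)
    · show max (a y) (b y) = 1
      rw [a3 y hy]; exact max_eq_left (b2 y).2
    · show max (a y) (b y) = 1
      rw [b3 y hy]; exact max_eq_right (a2 y).2
  · intro x hx
    obtain ⟨g, h1, h2, h3, h4⟩ := exists_bump (hU.mem_nhds (hKU hx))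
    exact ⟨{y | g y = 1}, mem_nhdsWithin_of_mem_nhds h3, g, h1, h2, fun y hy => hy, h4⟩

theorem plg : PLG := by
  intro E _ _ _ U r hU hr
  obtain ⟨T, hTc, hTU, hTu, hTm⟩ := hU.exists_iUnion_isClosed
  have hK : ∀ k : ℕ, IsCompact (T k ∩ closedBall (0 : E) k) := fun k =>
    (isCompact_closedBall _ _).inter_left (hTc k)
  choose u hu1 hu2 hu3 hu4 hu5 using fun k : ℕ =>
    ury (hK k) hU (inter_subset_left.trans (hTU k))
  have hc : ∀ k : ℕ, ∃ c : ℝ, 0 < c ∧ c ≤ 1 / ((k : ℝ) + 1) ∧ ∀ y ∈ tsupport (u k), c ≤ r y := by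
    intro k
    obtain ⟨c, hc, hcr⟩ := IsCompact.exists_forall_le' (hu4 k) (hr.1.mono (hu5 k))
      fun y hy => hr.2 y (hu5 k hy)
    exact ⟨min c (1 / ((k : ℝ) + 1)), lt_min hc (by positivity), min_le_right _ _,
      fun y hy => (min_le_left _ _).trans (hcr y hy)⟩
  choose c hc1 hc2 hc3 using hc
  have hpos : ∀ x ∈ U, ∃ k, 0 < c k * u k x := by
    intro x hx
    rw [← hTu] at hx
    obtain ⟨k, hk⟩ := mem_iUnion.1 hx
    obtain ⟨m, hm⟩ := exists_nat_ge ‖x‖
    refine ⟨max k m, ?_⟩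
    rw [hu3 _ x ⟨hTm (le_max_left _ _) hk, mem_closedBall_zero_iff.2
      (hm.trans (Nat.cast_le.2 (le_max_right _ _)))⟩, mul_one]
    exact hc1 _
  obtain ⟨h1, h2⟩ := pl_iSup_small (X := U) (f := fun k y => c k * u k y)
    (fun k => pl_mono (pl_mul _ (hu1 k)) (IsOpen.conicalSet hU) (subset_univ _))
    tendsto_one_div_add_atTop_nhds_zero_nat
    (fun k y _ => (mul_le_of_le_one_right (hc1 k).le (hu2 k y).2).trans (hc2 k)) hpos
  refine ⟨_, h1, fun x hx => ⟨?_, ?_⟩⟩
  · obtain ⟨k, hk⟩ := hpos x hx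
    exact hk.trans_le ((h2 x hx).2 k)
  · obtain ⟨j, hj⟩ := (h2 x hx).1
    rw [hj]
    by_cases hxj : x ∈ tsupport (u j)
    · exact (mul_le_of_le_one_right (hc1 j).le (hu2 j x).2).trans (hc3 j x hxj)
    · rw [image_eq_zero_of_notMem_tsupport hxj, mul_zero]
      exact (hr.2 x hx).le

end P073
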