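import Vale.Agent.P073Z.A2.PL

/-!
# More calculus of piecewise linear maps
-/

open Set Metric Topology Filter

namespace P073.A2

variable {E F G : Type} [NormedAddCommGroup E] [NormedSpace ℝ E]
  [NormedAddCommGroup F] [NormedSpace ℝ F] [NormedAddCommGroup G] [NormedSpace ℝ G]
  {X : Set E} {h : E → F}

theorem pl_clm_comp (L : F →L[ℝ] G) (H : PLOn h X) : PLOn (fun x => L (h x)) X :=
  pl_comp_univ (pl_clm L conicalSet_univ) H

theorem pl_apply {ι : Type} [Fintype ι] {k : E → ι → ℝ} (H : PLOn k X) (i : ι) :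
    PLOn (fun x => k x i) X :=
  pl_comp_univ (pl_proj i conicalSet_univ) H

/-- a PL norm on a finite dimensional space -/
theorem exists_plNorm [FiniteDimensional ℝ E] : ∃ (N : E → ℝ) (C : ℝ), 0 < C ∧ PLOn N univ ∧
    (∀ x, ‖x‖ ≤ N x ∧ N x ≤ C * ‖x‖) ∧ (∀ x y, N (x + y) ≤ N x + N y) ∧
    ∀ (t : ℝ) x, N (t • x) = |t| * N x := by
  let e : E ≃L[ℝ] (Fin (Module.finrank ℝ E) → ℝ) :=
    ContinuousLinearEquiv.ofFinrankEq (by simp)
  let A : ℝ := ‖(e.symm : (Fin (Module.finrank ℝ E) → ℝ) →L[ℝ] E)‖ + 1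
  let B : ℝ := ‖(e : E →L[ℝ] (Fin (Module.finrank ℝ E) → ℝ))‖ + 1
  have hA : 0 < A := by positivity
  have hB : 0 < B := by positivity
  have he : PLOn (fun x => e x) univ :=
    pl_clm (e : E →L[ℝ] (Fin (Module.finrank ℝ E) → ℝ)) conicalSet_univ
  refine ⟨fun x => A * ‖e x‖, A * B, mul_pos hA hB,
    pl_mul A (pl_comp_univ (pl_norm_pi _) he), fun x => ⟨?_, ?_⟩,
    fun x y => ?_, fun t x => ?_⟩
  · have h1 := (e.symm : (Fin (Module.finrank ℝ E) → ℝ) →L[ℝ] E).le_opNorm (e x)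
    have h2 : (e.symm : (Fin (Module.finrank ℝ E) → ℝ) →L[ℝ] E) (e x) = x := e.symm_apply_apply x
    rw [h2] at h1
    refine h1.trans (mul_le_mul_of_nonneg_right (by simp [A]) (norm_nonneg _))
  · have h1 := (e : E →L[ℝ] (Fin (Module.finrank ℝ E) → ℝ)).le_opNorm x
    rw [mul_assoc]
    refine mul_le_mul_of_nonneg_left (h1.trans ?_) hA.le
    exact mul_le_mul_of_nonneg_right (by simp [B]) (norm_nonneg _)
  · show A * ‖e (x + y)‖ ≤ A * ‖e x‖ + A * ‖e y‖
    rw [map_add, ← mul_add]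
    exact mul_le_mul_of_nonneg_left (norm_add_le _ _) hA.le
  · show A * ‖e (t • x)‖ = |t| * (A * ‖e x‖)
    rw [map_smul, norm_smul, Real.norm_eq_abs]
    ring

/-- a sequence of PL maps which is locally eventually constant has a PL limit -/
theorem exists_stab {M : ℕ → E → F} (hM : ∀ j, PLOn (M j) X)
    (hs : ∀ x ∈ X, ∃ j, ∀ᶠ y in 𝓝[X] x, ∀ i, j ≤ i → M i y = M j y) :
    ∃ m : E → F, PLOn m X ∧ ∀ x ∈ X, ∃ j, ∀ i, j ≤ i → m x = M i x := by
  classical
  choose! J hJ using hs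
  refine ⟨fun x => M (J x) x, pl_of_local fun x hx => ⟨M (J x), hM _, ?_⟩,
    fun x hx => ⟨J x, fun i hi => ((hJ x hx).self_of_nhdsWithin hx i hi).symm⟩⟩
  filter_upwards [hJ x hx, self_mem_nhdsWithin] with y hy hyX
  rw [← hy (max (J x) (J y)) (le_max_left _ _),
    (hJ y hyX).self_of_nhdsWithin hyX (max (J x) (J y)) (le_max_right _ _)]

/-- it suffices to check homogeneity for factors between one half and one -/
theorem conical_of_half {x : E} (hx : x ∈ X) {r : ℝ} (hr : 0 < r)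
    (H : ∀ v : E, ‖v‖ ≤ r → x + v ∈ X → ∀ t ∈ Icc (1 / 2 : ℝ) 1,
      x + t • v ∈ X ∧ h (x + t • v) = h x + t • (h (x + v) - h x)) : ConicalWithinAt h X x := by
  have key : ∀ k : ℕ, ∀ v : E, ‖v‖ ≤ r → x + v ∈ X → ∀ t ∈ Icc ((1 / 2 : ℝ) ^ k) 1,
      x + t • v ∈ X ∧ h (x + t • v) = h x + t • (h (x + v) - h x) := by
    intro k
    induction k with
    | zero =>
      intro v _ hv t ht
      have : t = 1 := le_antisymm ht.2 (by simpa using ht.1)
      subst this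
      simpa using hv
    | succ k ih =>
      intro v hv hxv t ht
      rcases le_total (1 / 2) t with h1 | h1
      · exact H v hv hxv t ⟨h1, ht.2⟩
      · obtain ⟨a1, a2⟩ := H v hv hxv (1 / 2) ⟨le_rfl, by norm_num⟩
        have h2 : (2 * t) ∈ Icc ((1 / 2 : ℝ) ^ k) 1 :=
          ⟨by have := ht.1; rw [pow_succ] at this; linarith, by linarith⟩
        obtain ⟨b1, b2⟩ := ih _ (norm_smul_le_of_mem_Icc ⟨by norm_num, by norm_num⟩ hv) a1 _ h2
        have e : (2 * t) • (1 / 2 : ℝ) • v = t • v := by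
          rw [smul_smul]; congr 1; ring
        rw [e] at b1 b2
        refine ⟨b1, ?_⟩
        rw [b2, a2, add_sub_cancel_left, smul_smul]
        congr 2; ring
  refine ⟨r, hr, fun v hv hxv t ht => ?_⟩
  rcases eq_or_lt_of_le ht.1 with h0 | h0
  · rw [← h0]; simpa using hx
  · obtain ⟨k, hk⟩ := exists_pow_lt_of_lt_one h0 (show (1 / 2 : ℝ) < 1 by norm_num)
    exact key k v hv hxv t ⟨hk.le, ht.2⟩

end P073.A2
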